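import Vale.Agent.P061Z.Stmt
import Vale.Agent.P061Z.Final

/-! # P061: the strong thin tree conjecture -/

namespace Vale.Agent.Results.P061.StrongThinTree

open Finset Vale.Agent.P061Z

theorem result : ∃ C : ℝ, ∀ k : ℕ, 1 ≤ k → ∀ (V E : Type) [Fintype V] [DecidableEq V]
    [Fintype E] [DecidableEq E] (ends : E → Sym2 V), (∀ e, ¬ (ends e).IsDiag) →
    2 ≤ Fintype.card V → EdgeConnected ends k →
    ∃ T : Finset E, IsSpanningTree ends T ∧ ∀ S : Finset V, S.Nonempty → S ≠ univ →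
      ((cut ends T S).card : ℝ) ≤ C / k * (cut ends univ S).card := by
  obtain ⟨C, hC⟩ := Final.thin_tree
  refine ⟨C, fun k hk V E _ _ _ _ ends _ hV hec => ?_⟩
  obtain ⟨T, h1, h2⟩ := hC k hk V E ends hV hec
  exact ⟨T, h1, fun S _ _ => h2 S⟩

end Vale.Agent.Results.P061.StrongThinTree
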